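import Mathlib

/-!
# P015: a one-sided Kronecker lemma
-/

namespace Vale.Agent.Lib.P015

/-- Marching with a small positive step `g = k1 * s - j`. -/
theorem kron_pos (s : ℝ) (th ep : ℝ) (K : ℤ) (k1 j : ℤ) (hk1 : 0 < k1)
    (hg0 : 0 < (k1 : ℝ) * s - j) (hg1 : (k1 : ℝ) * s - j ≤ ep) :
    ∃ k m : ℤ, K ≤ k ∧ |(k : ℝ) * s - m - th| ≤ ep := by
  set g : ℝ := (k1 : ℝ) * s - j with hg
  set K' : ℤ := max K 0 with hK'
  set m0 : ℤ := ⌈(K' : ℝ) * g - th⌉ with hm0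
  set n : ℤ := ⌊(th + m0) / g⌋ with hn
  have h1 : (K' : ℝ) * g - th ≤ m0 := Int.le_ceil _
  have h2 : (K' : ℝ) ≤ (th + m0) / g := by
    rw [le_div_iff₀ hg0]; linarith
  have h3 : K' ≤ n := Int.le_floor.mpr h2
  have h4 : (n : ℝ) ≤ (th + m0) / g := Int.floor_le _
  have h5 : (th + m0) / g < n + 1 := Int.lt_floor_add_one _
  rw [le_div_iff₀ hg0] at h4
  rw [div_lt_iff₀ hg0] at h5
  have hn0 : 0 ≤ n := le_trans (le_max_right _ _) h3
  have hKn : K ≤ n := le_trans (le_max_left _ _) h3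
  refine ⟨n * k1, n * j + m0, ?_, ?_⟩
  · nlinarith
  · have : ((n * k1 : ℤ) : ℝ) * s - ((n * j + m0 : ℤ) : ℝ) - th = n * g - (th + m0) := by
      push_cast; rw [hg]; ring
    rw [this, abs_le]
    constructor <;> nlinarith

theorem kron (s : ℝ) (hs : Irrational s) (th ep : ℝ) (hep : 0 < ep) (K : ℤ) :
    ∃ k m : ℤ, K ≤ k ∧ |(k : ℝ) * s - m - th| ≤ ep := by
  obtain ⟨N, hN⟩ := exists_nat_gt (1 / ep)
  have hNpos : 0 < N := by
    have : (0 : ℝ) < N := lt_trans (by positivity) hN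
    exact_mod_cast this
  obtain ⟨j, k1, hk1, -, hjk⟩ := Real.exists_int_int_abs_mul_sub_le s hNpos
  have hsmall : 1 / ((N : ℝ) + 1) ≤ ep := by
    rw [div_le_iff₀ (by positivity)]
    rw [div_lt_iff₀ hep] at hN
    nlinarith
  have hne : (k1 : ℝ) * s - j ≠ 0 := by
    intro h0
    have hk1' : (k1 : ℝ) ≠ 0 := by exact_mod_cast hk1.ne'
    have : s = ((j / k1 : ℚ) : ℝ) := by
      push_cast
      field_simp
      linarith
    exact hs ⟨_, this.symm⟩
  have hle := le_trans hjk hsmall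
  rw [abs_le] at hle
  rcases lt_or_gt_of_ne hne with hneg | hpos
  · obtain ⟨k, m, hk, hkm⟩ := kron_pos (-s) (-th) ep K k1 (-j) hk1
      (by push_cast; linarith) (by push_cast; linarith)
    refine ⟨k, -m, hk, ?_⟩
    have : (k : ℝ) * s - ((-m : ℤ) : ℝ) - th = -((k : ℝ) * (-s) - m - (-th)) := by
      push_cast; ring
    rw [this, abs_neg]
    exact hkm
  · exact kron_pos s th ep K k1 j hk1 hpos hle.2

theorem kron_neg (s : ℝ) (hs : Irrational s) (th ep : ℝ) (hep : 0 < ep) (K : ℤ) :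
    ∃ k m : ℤ, k ≤ K ∧ |(k : ℝ) * s - m - th| ≤ ep := by
  obtain ⟨k, m, hk, hkm⟩ := kron (-s) hs.neg th ep hep (-K)
  refine ⟨-k, m, by linarith, ?_⟩
  have : ((-k : ℤ) : ℝ) * s - m - th = (k : ℝ) * (-s) - m - th := by push_cast; ring
  rw [this]
  exact hkm

end Vale.Agent.Lib.P015
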