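import Mathlib

/-!
# P015: arithmetic part

A Gaussian integer `X + Y i` with `rho^2 + 1 ∣ X - rho * Y` is divisible by `rho + i`.
Two such divisibilities with `0 < rho1 < rho2` rule out irreducibility.  A Chinese remainder
induction produces, along every lattice direction, whole boxes of such integers.
-/

namespace Vale.Agent.Lib.P015

open Zsqrtd

/-- If `rho^2+1` divides `X - rho*Y` and `X + Y i` is irreducible, then its norm is `rho^2+1`. -/
theorem norm_of_irred (X Y r : ℤ) (h0 : 0 < r) (h1 : (r ^ 2 + 1) ∣ X - r * Y)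
    (h : Irreducible (⟨X, Y⟩ : GaussianInt)) : X ^ 2 + Y ^ 2 = r ^ 2 + 1 := by
  obtain ⟨k, hk⟩ := h1
  have e1 : (⟨X, Y⟩ : GaussianInt) = (⟨r, 1⟩ : GaussianInt) * ⟨r * k + Y, -k⟩ := by
    apply Zsqrtd.ext
    · simp only [Zsqrtd.re_mul]
      linarith [hk]
    · simp only [Zsqrtd.im_mul]
      ring
  rcases h.isUnit_or_isUnit e1 with hu | hu
  · exfalso
    have := (Zsqrtd.norm_eq_one_iff' (d := -1) (by norm_num) _).mpr hu
    rw [Zsqrtd.norm_def] at this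
    simp only at this
    nlinarith
  · have h2 := (Zsqrtd.norm_eq_one_iff' (d := -1) (by norm_num) _).mpr hu
    have h3 : (⟨X, Y⟩ : GaussianInt).norm
        = (⟨r, 1⟩ : GaussianInt).norm * (⟨r * k + Y, -k⟩ : GaussianInt).norm := by
      rw [e1, Zsqrtd.norm_mul]
    rw [h2, Zsqrtd.norm_def, Zsqrtd.norm_def] at h3
    simp only at h3
    linarith

theorem not_irred (X Y r1 r2 : ℤ) (h0 : 0 < r1) (h12 : r1 < r2)
    (h1 : (r1 ^ 2 + 1) ∣ X - r1 * Y) (h2 : (r2 ^ 2 + 1) ∣ X - r2 * Y) :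
    ¬ Irreducible (⟨X, Y⟩ : GaussianInt) := by
  intro h
  have e1 := norm_of_irred X Y r1 h0 h1 h
  have e2 := norm_of_irred X Y r2 (by linarith) h2 h
  nlinarith

/-- One Chinese remainder step. -/
theorem extend (p q A B M n0 : ℤ) (hM : 0 < M) (hS : 0 < p ^ 2 + q ^ 2) :
    ∃ n r : ℤ, M ≤ r ∧ M ∣ (n - n0) ∧ (r ^ 2 + 1) ∣ (A + n * p) - r * (B + n * q) := by
  set S := p ^ 2 + q ^ 2 with hSdef
  set r := S * M with hr
  set Q := r ^ 2 + 1 with hQ
  set kap := r * B - A with hkap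
  set n1 := -(p + r * q) * (S * M ^ 2) * kap with hn1
  refine ⟨n0 * Q - n1 * r ^ 2, r, ?_, ?_, ?_⟩
  · rw [hr]; nlinarith
  · refine ⟨n0 * (S ^ 2 * M) - n1 * (S ^ 2 * M), ?_⟩
    rw [hQ, hr]; ring
  · refine ⟨(n0 - n1) * (p - r * q) - kap * (1 - q ^ 2 * (S * M ^ 2)), ?_⟩
    have h1 : n1 * (p - r * q) = kap - kap * Q * (1 - q ^ 2 * (S * M ^ 2)) := by
      have h2 : (p + r * q) * (p - r * q) = S - Q * q ^ 2 := by
        rw [hQ, hSdef]; ring
      have h3 : S * (S * M ^ 2) = Q - 1 := by rw [hQ, hr]; ring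
      calc n1 * (p - r * q) = -((p + r * q) * (p - r * q)) * (S * M ^ 2) * kap := by
            rw [hn1]; ring
        _ = -(S - Q * q ^ 2) * (S * M ^ 2) * kap := by rw [h2]
        _ = -(S * (S * M ^ 2)) * kap + Q * q ^ 2 * (S * M ^ 2) * kap := by ring
        _ = -(Q - 1) * kap + Q * q ^ 2 * (S * M ^ 2) * kap := by rw [h3]
        _ = kap - kap * Q * (1 - q ^ 2 * (S * M ^ 2)) := by ring
    have h4 : r ^ 2 = Q - 1 := by rw [hQ]; ring
    calc A + (n0 * Q - n1 * r ^ 2) * p - r * (B + (n0 * Q - n1 * r ^ 2) * q)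
        = (n0 * Q - n1 * r ^ 2) * (p - r * q) - kap := by rw [hkap]; ring
      _ = (n0 * Q - n1 * (Q - 1)) * (p - r * q) - kap := by rw [h4]
      _ = Q * (n0 - n1) * (p - r * q) + n1 * (p - r * q) - kap := by ring
      _ = Q * (n0 - n1) * (p - r * q) + (kap - kap * Q * (1 - q ^ 2 * (S * M ^ 2))) - kap := by
            rw [h1]
      _ = Q * ((n0 - n1) * (p - r * q) - kap * (1 - q ^ 2 * (S * M ^ 2))) := by ring

/-- The sieve: a residue class `n0` modulo `M` such that all the translates by offsets in `F`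
of the lattice point `(a0,b0) + n0 (p,q)` carry two divisibilities. -/
theorem sieve (p q a0 b0 : ℤ) (hS : 0 < p ^ 2 + q ^ 2) (F : Finset (ℤ × ℤ)) :
    ∃ M n0 : ℤ, 0 < M ∧ ∀ o ∈ F, ∃ r1 r2 : ℤ, 0 < r1 ∧ r1 < r2 ∧
      (r1 ^ 2 + 1) ∣ M ∧ (r2 ^ 2 + 1) ∣ M ∧
      (r1 ^ 2 + 1) ∣ (a0 + o.1 + n0 * p) - r1 * (b0 + o.2 + n0 * q) ∧
      (r2 ^ 2 + 1) ∣ (a0 + o.1 + n0 * p) - r2 * (b0 + o.2 + n0 * q) := by
  induction F using Finset.induction_on with
  | empty => exact ⟨1, 0, one_pos, by simp⟩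
  | insert o F ho ih =>
    obtain ⟨M, n0, hM, hF⟩ := ih
    obtain ⟨n1, r1, hr1, hn1, hd1⟩ := extend p q (a0 + o.1) (b0 + o.2) M n0 hM hS
    have hM1 : 0 < M * (r1 ^ 2 + 1) := by positivity
    obtain ⟨n2, r2, hr2, hn2, hd2⟩ :=
      extend p q (a0 + o.1) (b0 + o.2) (M * (r1 ^ 2 + 1)) n1 hM1 hS
    have hpers : ∀ (Q r A B n n' : ℤ), Q ∣ (n' - n) → Q ∣ (A + n * p) - r * (B + n * q) →
        Q ∣ (A + n' * p) - r * (B + n' * q) := by
      intro Q r A B n n' h1 h2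
      have : (A + n' * p) - r * (B + n' * q)
          = ((A + n * p) - r * (B + n * q)) + (n' - n) * (p - r * q) := by ring
      rw [this]
      exact dvd_add h2 (Dvd.dvd.mul_right h1 _)
    have hM02 : M ∣ n2 - n0 := by
      have : n2 - n0 = (n2 - n1) + (n1 - n0) := by ring
      rw [this]
      exact dvd_add (dvd_trans (Dvd.intro _ rfl) hn2) hn1
    refine ⟨M * (r1 ^ 2 + 1) * (r2 ^ 2 + 1), n2, by positivity, ?_⟩
    intro o' ho'
    rcases Finset.mem_insert.mp ho' with rfl | ho'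
    · refine ⟨r1, r2, by linarith, ?_, ?_, ?_, ?_, hd2⟩
      · nlinarith
      · exact Dvd.dvd.mul_right (Dvd.intro_left _ rfl) _
      · exact Dvd.intro_left _ rfl
      · exact hpers _ _ _ _ n1 n2 (dvd_trans (Dvd.intro_left _ rfl) hn2) hd1
    · obtain ⟨s1, s2, h0, h12, hd1', hd2', he1, he2⟩ := hF o' ho'
      refine ⟨s1, s2, h0, h12, ?_, ?_, ?_, ?_⟩
      · exact Dvd.dvd.mul_right (Dvd.dvd.mul_right hd1' _) _
      · exact Dvd.dvd.mul_right (Dvd.dvd.mul_right hd2' _) _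
      · exact hpers _ _ _ _ n0 n2 (dvd_trans hd1' hM02) he1
      · exact hpers _ _ _ _ n0 n2 (dvd_trans hd2' hM02) he2

end Vale.Agent.Lib.P015
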