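import Mathlib
import Vale.Agent.Lib.P015.Sieve
import Vale.Agent.Lib.P015.Kron

/-!
# P015: boxes without Gaussian primes next to every real line (coordinates)
-/

namespace Vale.Agent.Lib.P015

/-- The conclusion: a lattice point `(a,b)` within `1` (in each coordinate) of the point with
parameter `t ≥ T` of the line, such that the box of half-side `R` around it has no
irreducible element. -/
def Good (P1 P2 e1 e2 : ℝ) (R : ℕ) (T : ℝ) : Prop :=
  ∃ (a b : ℤ) (t : ℝ), T ≤ t ∧ |(a : ℝ) - (P1 + t * e1)| ≤ 1 ∧ |(b : ℝ) - (P2 + t * e2)| ≤ 1 ∧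
    ∀ u v : ℤ, |u| ≤ R → |v| ≤ R → ¬ Irreducible (⟨a + u, b + v⟩ : GaussianInt)

noncomputable def box (R : ℕ) : Finset (ℤ × ℤ) :=
  (Finset.Icc (-(R : ℤ)) R) ×ˢ (Finset.Icc (-(R : ℤ)) R)

theorem mem_box (R : ℕ) (u v : ℤ) (hu : |u| ≤ R) (hv : |v| ≤ R) : (u, v) ∈ box R := by
  rw [abs_le] at hu hv
  simp only [box, Finset.mem_product, Finset.mem_Icc]
  exact ⟨hu, hv⟩

theorem key_rat (P1 P2 lam : ℝ) (hlam : 0 < lam) (p q : ℤ) (hS : 0 < p ^ 2 + q ^ 2)
    (R : ℕ) (T : ℝ) : Good P1 P2 (lam * p) (lam * q) R T := by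
  obtain ⟨M, n0, hM, hF⟩ := sieve p q (round P1) (round P2) hS (box R)
  set j : ℤ := ⌈|lam * T - n0|⌉ with hj
  have hj1 : |lam * T - n0| ≤ j := Int.le_ceil _
  have hj0 : (0 : ℝ) ≤ j := le_trans (abs_nonneg _) hj1
  have hj2 : lam * T - n0 ≤ j := le_trans (le_abs_self _) hj1
  have hM1 : (1 : ℝ) ≤ M := by exact_mod_cast hM
  set n : ℤ := n0 + M * j with hn
  have hnT : lam * T ≤ n := by
    rw [hn]; push_cast; nlinarith
  refine ⟨round P1 + n * p, round P2 + n * q, n / lam, ?_, ?_, ?_, ?_⟩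
  · rw [le_div_iff₀ hlam]; linarith
  · have : ((round P1 + n * p : ℤ) : ℝ) - (P1 + n / lam * (lam * p)) = -(P1 - round P1) := by
      push_cast; field_simp; ring
    rw [this, abs_neg]
    exact le_trans (abs_sub_round _) (by norm_num)
  · have : ((round P2 + n * q : ℤ) : ℝ) - (P2 + n / lam * (lam * q)) = -(P2 - round P2) := by
      push_cast; field_simp; ring
    rw [this, abs_neg]
    exact le_trans (abs_sub_round _) (by norm_num)
  · intro u v hu hv
    obtain ⟨r1, r2, h0, h12, hd1, hd2, he1, he2⟩ := hF (u, v) (mem_box R u v hu hv)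
    simp only at he1 he2
    refine not_irred _ _ r1 r2 h0 h12 ?_ ?_
    · have : round P1 + n * p + u - r1 * (round P2 + n * q + v)
          = (round P1 + u + n0 * p - r1 * (round P2 + v + n0 * q)) + M * (j * (p - r1 * q)) := by
        rw [hn]; ring
      rw [this]
      exact dvd_add he1 (Dvd.dvd.mul_right hd1 _)
    · have : round P1 + n * p + u - r2 * (round P2 + n * q + v)
          = (round P1 + u + n0 * p - r2 * (round P2 + v + n0 * q)) + M * (j * (p - r2 * q)) := by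
        rw [hn]; ring
      rw [this]
      exact dvd_add he2 (Dvd.dvd.mul_right hd2 _)

theorem key_rat' (P1 P2 e1 e2 lam : ℝ) (hlam : lam ≠ 0) (p q : ℤ) (hS : 0 < p ^ 2 + q ^ 2)
    (h1 : e1 = lam * p) (h2 : e2 = lam * q) (R : ℕ) (T : ℝ) : Good P1 P2 e1 e2 R T := by
  rcases lt_or_gt_of_ne hlam with hneg | hpos
  · have := key_rat P1 P2 (-lam) (by linarith) (-p) (-q) (by nlinarith) R T
    have e1' : -lam * ((-p : ℤ) : ℝ) = e1 := by rw [h1]; push_cast; ring
    have e2' : -lam * ((-q : ℤ) : ℝ) = e2 := by rw [h2]; push_cast; ring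
    rwa [e1', e2'] at this
  · rw [h1, h2]
    exact key_rat P1 P2 lam hpos p q hS R T

theorem key_irr (P1 P2 e1 e2 : ℝ) (he1 : e1 ≠ 0) (hs : Irrational (e2 / e1))
    (R : ℕ) (T : ℝ) : Good P1 P2 e1 e2 R T := by
  obtain ⟨M, n0, hM, hF⟩ := sieve 1 0 0 0 (by norm_num) (box R)
  have hMR : (0 : ℝ) < M := by exact_mod_cast hM
  set s : ℝ := e2 / e1 with hsdef
  set th : ℝ := -(P2 + (n0 - P1) * s) / M with hth
  have main : ∀ k m : ℤ, |(k : ℝ) * s - m - th| ≤ 1 / M →
      T ≤ (((n0 + M * k : ℤ) : ℝ) - P1) / e1 → Good P1 P2 e1 e2 R T := by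
    intro k m hkm hT
    refine ⟨n0 + M * k, M * m, (((n0 + M * k : ℤ) : ℝ) - P1) / e1, hT, ?_, ?_, ?_⟩
    · have : ((n0 + M * k : ℤ) : ℝ) - (P1 + (((n0 + M * k : ℤ) : ℝ) - P1) / e1 * e1) = 0 := by
        field_simp; ring
      rw [this]; simp
    · have : ((M * m : ℤ) : ℝ) - (P2 + (((n0 + M * k : ℤ) : ℝ) - P1) / e1 * e2)
          = -(M * ((k : ℝ) * s - m - th)) := by
        rw [hth, hsdef]; push_cast; field_simp; ring
      rw [this, abs_neg, abs_mul, abs_of_pos hMR]
      calc (M : ℝ) * |(k : ℝ) * s - m - th| ≤ M * (1 / M) :=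
            mul_le_mul_of_nonneg_left hkm hMR.le
        _ = 1 := by field_simp
    · intro u v hu hv
      obtain ⟨r1, r2, h0, h12, hd1, hd2, he1, he2⟩ := hF (u, v) (mem_box R u v hu hv)
      simp only at he1 he2
      refine not_irred _ _ r1 r2 h0 h12 ?_ ?_
      · have : n0 + M * k + u - r1 * (M * m + v)
            = (0 + u + n0 * 1 - r1 * (0 + v + n0 * 0)) + M * (k - r1 * m) := by ring
        rw [this]
        exact dvd_add he1 (Dvd.dvd.mul_right hd1 _)
      · have : n0 + M * k + u - r2 * (M * m + v)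
            = (0 + u + n0 * 1 - r2 * (0 + v + n0 * 0)) + M * (k - r2 * m) := by ring
        rw [this]
        exact dvd_add he2 (Dvd.dvd.mul_right hd2 _)
  rcases lt_or_gt_of_ne he1 with hneg | hpos
  · obtain ⟨k, m, hk, hkm⟩ := kron_neg s hs th (1 / M) (by positivity)
      ⌊(T * e1 + P1 - n0) / M⌋
    refine main k m hkm ?_
    rw [le_div_iff_of_neg hneg]
    have h1 : (k : ℝ) ≤ (T * e1 + P1 - n0) / M :=
      le_trans (by exact_mod_cast hk) (Int.floor_le _)
    rw [le_div_iff₀ hMR] at h1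
    push_cast; linarith
  · obtain ⟨k, m, hk, hkm⟩ := kron s hs th (1 / M) (by positivity)
      ⌈(T * e1 + P1 - n0) / M⌉
    refine main k m hkm ?_
    rw [le_div_iff₀ hpos]
    have h1 : (T * e1 + P1 - n0) / M ≤ (k : ℝ) :=
      le_trans (Int.le_ceil _) (by exact_mod_cast hk)
    rw [div_le_iff₀ hMR] at h1
    push_cast; linarith

theorem key (P1 P2 e1 e2 : ℝ) (he : e1 ≠ 0 ∨ e2 ≠ 0) (R : ℕ) (T : ℝ) :
    Good P1 P2 e1 e2 R T := by
  by_cases h1 : e1 = 0
  · have h2 : e2 ≠ 0 := by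
      rcases he with h | h
      · exact absurd h1 h
      · exact h
    exact key_rat' P1 P2 e1 e2 e2 h2 0 1 (by norm_num) (by rw [h1]; simp) (by simp) R T
  · by_cases hs : Irrational (e2 / e1)
    · exact key_irr P1 P2 e1 e2 h1 hs R T
    · unfold Irrational at hs
      push Not at hs
      obtain ⟨r, hr⟩ := hs
      have hden : (r.den : ℝ) ≠ 0 := by exact_mod_cast r.den_nz
      have hden' : (0 : ℤ) < (r.den : ℤ) := by exact_mod_cast r.den_pos
      refine key_rat' P1 P2 e1 e2 (e1 / r.den) (div_ne_zero h1 hden) (r.den : ℤ) r.num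
        (by positivity) ?_ ?_ R T
      · push_cast; field_simp
      · have h3 : e2 = e1 * (r : ℝ) := by rw [hr]; field_simp
        rw [h3, Rat.cast_def]
        field_simp

end Vale.Agent.Lib.P015
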